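import Vale.Agent.P212.Base.Vertex
import Vale.Agent.P212.Spec.Space

/-!
P212: the coarse disjoint union metric on the two spaces.
-/

namespace VP212

/-- Path distance inside a component, through the roots between components. -/
noncomputable def joinDist {V : Type} (G : SimpleGraph V) (c : V → ℕ) (o : ℕ → V) (x y : V) : ℝ :=
  if c x = c y then (G.dist x y : ℝ)
  else (G.dist x (o (c x)) : ℝ) + G.dist y (o (c y)) + (c x + c y + 1)

/-- The join is a metric when every point reaches the root of its component. -/
@[reducible] noncomputable def joinMetric {V : Type} (G : SimpleGraph V) (c : V → ℕ) (o : ℕ → V)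
    (ho : ∀ m, c (o m) = m) (hreach : ∀ x, G.Reachable x (o (c x))) : MetricSpace V where
  dist := joinDist G c o
  dist_self x := by simp [joinDist]
  dist_comm x y := by
    simp only [joinDist]
    by_cases h : c x = c y
    · simp [h, SimpleGraph.dist_comm]
    · simp [h, Ne.symm h]; ring
  dist_triangle x y z := by
    have hr : ∀ {a b : V}, c a = c b → G.Reachable a b := fun {a b} h =>
      (hreach a).trans (h ▸ (hreach b).symm)
    have htri : ∀ {a b : V} (d : V), c a = c b →
        (G.dist a d : ℝ) ≤ G.dist a b + G.dist b d := by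
      intro a b d h
      exact_mod_cast (hr h).dist_triangle_left d
    simp only [joinDist]
    by_cases h1 : c x = c y <;> by_cases h2 : c y = c z
    · simp only [h1, h2, h1.trans h2, if_true]
      exact htri z h1
    · have h3 : c x ≠ c z := fun h => h2 (h1.symm.trans h)
      simp only [h1, if_neg h2, if_true]
      have := htri (o (c y)) h1
      linarith
    · have h3 : c x ≠ c z := fun h => h1 (h.trans h2.symm)
      simp only [h2, if_true, h2 ▸ h1, if_false]
      have := htri (o (c z)) h2.symm
      rw [SimpleGraph.dist_comm (u := z) (v := y)] at this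
      linarith
    · simp only [if_neg h1, if_neg h2]
      by_cases h3 : c x = c z
      · simp only [h3, if_true]
        have := htri (a := x) z (ho (c x)).symm
        rw [← h3] at *
        rw [SimpleGraph.dist_comm (u := o (c x)) (v := z)] at this
        have hy : (0 : ℝ) ≤ G.dist y (o (c y)) := Nat.cast_nonneg _
        have hx : (0 : ℝ) ≤ (c x : ℝ) := Nat.cast_nonneg _
        have hy' : (0 : ℝ) ≤ (c y : ℝ) := Nat.cast_nonneg _
        linarith
      · simp only [if_neg h3]
        have hy : (0 : ℝ) ≤ G.dist y (o (c y)) := Nat.cast_nonneg _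
        have hy' : (0 : ℝ) ≤ (c y : ℝ) := Nat.cast_nonneg _
        linarith
  eq_of_dist_eq_zero {x y} h := by
    simp only [joinDist] at h
    by_cases hc : c x = c y
    · rw [if_pos hc] at h
      exact ((hreach x).trans (hc ▸ (hreach y).symm)).dist_eq_zero_iff.1 (by exact_mod_cast h)
    · rw [if_neg hc] at h
      have : (0 : ℝ) ≤ (G.dist x (o (c x)) : ℝ) + G.dist y (o (c y)) := by positivity
      have hx : (0 : ℝ) ≤ (c x : ℝ) := Nat.cast_nonneg _
      have hy : (0 : ℝ) ≤ (c y : ℝ) := Nat.cast_nonneg _
      linarith

/-- The root of the `n`-th component. -/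
noncomputable def vertRoot (T : Tower) (n : ℕ) : Vert T := ⟨n, 0, 0, Classical.arbitrary _⟩

/-- The root of the `n`-th component of the collapsed space. -/
def baseRoot (n : ℕ) : Base := ⟨n, 0, 0⟩

theorem reach_of_grid {V : Type} (G : SimpleGraph V) {n : ℕ} (F : Grid n → V)
    (h1 : ∀ z : Grid n, G.Reachable (F z) (F (z.1 + 1, z.2)))
    (h2 : ∀ z : Grid n, G.Reachable (F z) (F (z.1, z.2 + 1))) (z : Grid n) :
    G.Reachable (F z) (F 0) := by
  have hA : ∀ (k : ℕ) (b : ZMod (n + 3)), G.Reachable (F (0, b)) (F ((k : ZMod (n + 3)), b)) := by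
    intro k b
    induction k with
    | zero => simp
    | succ k ih => simpa using ih.trans (h1 _)
  have hB : ∀ (k : ℕ), G.Reachable (F 0) (F (0, (k : ZMod (n + 3)))) := by
    intro k
    induction k with
    | zero => simp [Prod.mk_zero_zero]
    | succ k ih => simpa using ih.trans (h2 _)
  obtain ⟨a, b⟩ := z
  have := (hB b.val).trans (hA a.val _)
  simp only [ZMod.natCast_zmod_val] at this
  exact this.symm

theorem reach_symm_adj {V : Type} {r : V → V → Prop} {x y : V} (h : r x y) :
    (SimpleGraph.fromRel r).Reachable x y := by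
  by_cases hxy : x = y
  · exact hxy ▸ SimpleGraph.Reachable.refl _
  · exact SimpleGraph.Adj.reachable ((SimpleGraph.fromRel_adj _ _ _).2 ⟨hxy, Or.inl h⟩)

theorem vert_reach_root (T : Tower) (x : Vert T) :
    (vertGraph T).Reachable x (vertRoot T x.n) := by
  obtain ⟨n, z, l, w⟩ := x
  induction l with
  | zero =>
    have : ∀ v : T.Fib n 0, v = (vertRoot T n).w := fun v => (T.root n).elim _ _
    rw [this w]
    refine reach_of_grid (vertGraph T) (fun z => ⟨n, z, 0, (vertRoot T n).w⟩) ?_ ?_ z
    · intro z
      refine reach_symm_adj (Or.inr (Or.inl ?_))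
      show _ = stepA _
      simp only [stepA]
      congr 1
      exact (T.root n).elim _ _
    · intro z
      refine reach_symm_adj (Or.inr (Or.inr (Or.inl ?_)))
      show _ = stepB _
      simp only [stepB]
      congr 1
      exact (T.root n).elim _ _
  | succ l ih =>
    refine SimpleGraph.Reachable.trans ?_ (ih (T.par n l w))
    exact (reach_symm_adj (r := edgeRel) (x := (⟨n, z, l, T.par n l w⟩ : Vert T))
      (y := ⟨n, z, l + 1, w⟩) (Or.inr (Or.inr (Or.inr ⟨w, rfl, rfl⟩)))).symm

theorem base_reach_root (x : Base) : baseGraph.Reachable x (baseRoot x.n) := by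
  obtain ⟨n, z, l⟩ := x
  induction l with
  | zero =>
    exact reach_of_grid baseGraph (fun z => ⟨n, z, 0⟩)
      (fun z => reach_symm_adj (Or.inl rfl)) (fun z => reach_symm_adj (Or.inr (Or.inl rfl))) z
  | succ l ih =>
    exact (reach_symm_adj (r := baseRel) (x := ⟨n, z, l⟩) (y := ⟨n, z, l + 1⟩)
      (Or.inr (Or.inr rfl))).symm.trans ih

noncomputable instance vertMetric (T : Tower) : MetricSpace (Vert T) :=
  joinMetric (vertGraph T) Vert.n (vertRoot T) (fun _ => rfl) (vert_reach_root T)

noncomputable instance baseMetric : MetricSpace Base :=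
  joinMetric baseGraph Base.n baseRoot (fun _ => rfl) base_reach_root

end VP212
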