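import Vale.Agent.P212.Spec.Assembly
import Vale.Agent.P212.Base.Metric

/-!
P212: operator-side notions shared by the parts.
-/

open scoped InnerProductSpace ZeroAtInfty

namespace VP212

/-- A coupling of the uniform measures on two fibres, concentrated at distance at most `S`. -/
def FibresCouple (T : Tower) (u v : Base) (S : ℝ) : Prop :=
  ∃ c : T.Fib u.n u.l → T.Fib v.n v.l → ℝ, (∀ a b, 0 ≤ c a b) ∧
    (∀ a, ∑ b, c a b = 1 / (Fintype.card (T.Fib u.n u.l) : ℝ)) ∧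
    (∀ b, ∑ a, c a b = 1 / (Fintype.card (T.Fib v.n v.l) : ℝ)) ∧
    ∀ a b, c a b ≠ 0 → dist (⟨u.n, u.z, u.l, a⟩ : Vert T) ⟨v.n, v.z, v.l, b⟩ ≤ S

/-- The geometric facts about the two spaces used by the averaging map. -/
def GeometrySpec : Prop :=
  ∀ T : Tower,
    UniformlyDiscrete (Vert T) ∧ BoundedGeometry (Vert T) ∧ BoundedGeometry Base ∧
    (∀ x y : Vert T, dist x.base y.base ≤ dist x y) ∧
    (∀ g (x : Vert T), dist x (stepG g x) ≤ 1) ∧
    (∀ R : ℝ, ∃ K : ℕ, ∀ x y : Vert T, x.base = y.base → dist x y ≤ R →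
      ∃ w : List Gen, w.length ≤ K ∧ w.foldr stepG x = y) ∧
    (∀ R : ℝ, ∃ S : ℝ, ∀ u v : Base, dist u v ≤ R → FibresCouple T u v S)

/-- The root vertices of the space. -/
noncomputable def rootVert (T : Tower) (r : Σ n, Grid n) : Vert T :=
  ⟨r.1, r.2, 0, Classical.arbitrary _⟩

/-- The root vertices of the collapsed space. -/
def rootBase (r : Σ n, Grid n) : Base := ⟨r.1, r.2, 0⟩

/-- `T` is supported on the roots and has there the entries of `T0`. -/
def AtRoots {V : Type} (ι : (Σ n, Grid n) → V) (T : RoeSpace V →L[ℂ] RoeSpace V)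
    (T0 : RoeSpace (Σ n, Grid n) →L[ℂ] RoeSpace (Σ n, Grid n)) : Prop :=
  (∀ a b k l, ⟪delta (ι a) k, T (delta (ι b) l)⟫_ℂ = ⟪delta a k, T0 (delta b l)⟫_ℂ) ∧
  ∀ x y k l, (x ∉ Set.range ι ∨ y ∉ Set.range ι) → ⟪delta x k, T (delta y l)⟫_ℂ = 0

/-- No entries between different components. -/
def CompDiag (T0 : RoeSpace (Σ n, Grid n) →L[ℂ] RoeSpace (Σ n, Grid n)) : Prop :=
  ∀ a b : Σ n, Grid n, a.1 ≠ b.1 → ∀ k l, ⟪delta a k, T0 (delta b l)⟫_ℂ = 0

/-- The maximal norm is finite for spaces of bounded geometry. -/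
def NormFiniteSpec : Prop :=
  ∀ (X : Type) [MetricSpace X], UniformlyDiscrete X → BoundedGeometry X → MaxNormFinite X

/-- The averaging homomorphism, defined on the unitised maximal Roe algebra of the collapsed
space and compatible with the roots. -/
def AveragingSpec : Prop :=
  ∀ T : Tower, ∃ Φ : (UnivSpace Base →L[ℂ] UnivSpace Base) →
      (UnivSpace (Vert T) →L[ℂ] UnivSpace (Vert T)),
    (∀ a ∈ maxRoeUnit Base, Φ a ∈ maxRoeUnit (Vert T)) ∧
    (∀ a ∈ maxRoeUnit Base, ∀ b ∈ maxRoeUnit Base,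
      Φ (a + b) = Φ a + Φ b ∧ Φ (a * b) = Φ a * Φ b) ∧
    Φ 0 = 0 ∧ Φ 1 = 1 ∧
    ∀ T0 S S' A A', AtRoots rootBase S T0 → AtRoots (rootVert T) S' T0 → IsRoe S → IsRoe S' →
      IsUnivImage S A → IsUnivImage S' A' → Φ A = A'

/-- The swindle: an index class supported at the roots vanishes on the collapsed space. -/
def SwindleSpec : Prop :=
  ∀ (S : Fin 2 → Fin 2 → (RoeSpace Base →L[ℂ] RoeSpace Base))
    (T0 : Fin 2 → Fin 2 → (RoeSpace (Σ n, Grid n) →L[ℂ] RoeSpace (Σ n, Grid n)))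
    (A : Fin 2 → Fin 2 → (UnivSpace Base →L[ℂ] UnivSpace Base)),
    (∀ i j, IsRoe (S i j) ∧ AtRoots rootBase (S i j) (T0 i j) ∧ IsUnivImage (S i j) (A i j)) →
    (∀ i j, CompDiag (T0 i j)) →
    IsIdempotentElem (Matrix.diagonal ![(0 : RoeSpace Base →L[ℂ] RoeSpace Base), 1] +
      Matrix.of S) →
    SameK0 (maxRoeUnit Base) (Matrix.diagonal ![0, 1] + Matrix.of A) (Matrix.diagonal ![0, 1])

end VP212
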