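import Vale.Agent.P212.Base.Ops

/-!
P212: the mod `Q` pairing and what it is applied to.
-/

open scoped InnerProductSpace ZeroAtInfty

namespace VP212

/-- A path of invertible matrices over the unitisation of `A`, written as `1 + a t` with inverse
`1 + b t`, starting at the identity and ending at a `Q`-fold multiple. -/
structure QPath (A : Type) [NonUnitalRing A] [TopologicalSpace A] (Q : ℕ) where
  ι : Type
  [fin : Fintype ι]
  [dec : DecidableEq ι]
  a : ℝ → Matrix (ι × Fin Q) (ι × Fin Q) A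
  b : ℝ → Matrix (ι × Fin Q) (ι × Fin Q) A
  cont_a : ∀ i j, Continuous fun t => a t i j
  cont_b : ∀ i j, Continuous fun t => b t i j
  inv_ab : ∀ t, a t + b t + a t * b t = 0
  inv_ba : ∀ t, a t + b t + b t * a t = 0
  start : a 0 = 0
  finish : ∃ v v' : Matrix ι ι A, v + v' + v * v' = 0 ∧ v + v' + v' * v = 0 ∧
    ∀ i j x y, a 1 (i, x) (j, y) = if x = y then v i j else 0

attribute [instance] QPath.fin QPath.dec

variable {A : Type} [NonUnitalCStarAlgebra A]

/-- The amplified Hilbert space. -/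
abbrev Ampl (ι : Type) [Fintype ι] (H : Type) [NormedAddCommGroup H] [InnerProductSpace ℂ H] :=
  PiLp 2 (fun _ : ι => H)

/-- The operator of an operator matrix. -/
noncomputable def amplMat {ι : Type} [Fintype ι] {H H' : Type} [NormedAddCommGroup H]
    [InnerProductSpace ℂ H] [NormedAddCommGroup H'] [InnerProductSpace ℂ H']
    (M : Matrix ι ι (H →L[ℂ] H')) : Ampl ι H →L[ℂ] Ampl ι H' :=
  (PiLp.continuousLinearEquiv 2 ℂ (fun _ : ι => H')).symm.toContinuousLinearMap.comp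
    (ContinuousLinearMap.pi fun i => ∑ j, (M i j).comp (PiLp.proj 2 (fun _ : ι => H) j))

/-- `k` is the Fredholm index of `T` as a map from the range of `P` to the range of `P'`. -/
def HasIndexBetween {H H' : Type} [NormedAddCommGroup H] [InnerProductSpace ℂ H]
    [NormedAddCommGroup H'] [InnerProductSpace ℂ H'] (P : H →L[ℂ] H) (P' : H' →L[ℂ] H')
    (T : H →L[ℂ] H') (k : ℤ) : Prop :=
  ∃ L : LinearMap.range (P : H →ₗ[ℂ] H) →ₗ[ℂ] LinearMap.range (P' : H' →ₗ[ℂ] H'),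
    (∀ x, ((L x : LinearMap.range (P' : H' →ₗ[ℂ] H')) : H') = P' (T x)) ∧
    FiniteDimensional ℂ (LinearMap.ker L) ∧
    FiniteDimensional ℂ (LinearMap.range (P' : H' →ₗ[ℂ] H') ⧸ LinearMap.range L) ∧
    (Module.finrank ℂ (LinearMap.ker L) : ℤ) -
      Module.finrank ℂ (LinearMap.range (P' : H' →ₗ[ℂ] H') ⧸ LinearMap.range L) = k

variable {Q : ℕ}

/-- Along `p`, the module `M` sees a pair of idempotent loops `exp(2πiθ)P` and `exp(-2πiθ)C`. -/
def SeesLoop (p : QPath A Q) (M : FredMod A) (θ : ℝ → ℝ)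
    (P0 C0 : Ampl (p.ι × Fin Q) M.H0.carrier →L[ℂ] Ampl (p.ι × Fin Q) M.H0.carrier)
    (P1 C1 : Ampl (p.ι × Fin Q) M.H1.carrier →L[ℂ] Ampl (p.ι × Fin Q) M.H1.carrier) : Prop :=
  Continuous θ ∧ θ 0 = 0 ∧ P0 * P0 = P0 ∧ C0 * C0 = C0 ∧ P1 * P1 = P1 ∧ C1 * C1 = C1 ∧
  P0 * C0 = 0 ∧ C0 * P0 = 0 ∧ P1 * C1 = 0 ∧ C1 * P1 = 0 ∧
  (∀ t ∈ Set.Icc (0 : ℝ) 1,
    amplMat ((p.a t).map M.ρ0) =
      (Complex.exp (2 * Real.pi * Complex.I * θ t) - 1) • P0 +
      (Complex.exp (-(2 * Real.pi * Complex.I * θ t)) - 1) • C0 ∧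
    amplMat ((p.a t).map M.ρ1) =
      (Complex.exp (2 * Real.pi * Complex.I * θ t) - 1) • P1 +
      (Complex.exp (-(2 * Real.pi * Complex.I * θ t)) - 1) • C1) ∧
  IsCompactOperator ((amplMat (Matrix.diagonal fun _ => M.W)).comp P0 -
    P1.comp (amplMat (Matrix.diagonal fun _ => M.W))) ∧
  IsCompactOperator ((amplMat (Matrix.diagonal fun _ => M.W)).comp C0 -
    C1.comp (amplMat (Matrix.diagonal fun _ => M.W)))

/-- Every path pairs with K-homology, with values mod `Q`; a loop of idempotents gives the index. -/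
def PairingSpec : Prop :=
  ∀ (A : Type) [NonUnitalCStarAlgebra A] (Q : ℕ), 0 < Q → ∀ p : QPath A Q,
    ∃ φ : KHom A →+ ZMod Q, ∀ (M : FredMod A) (θ : ℝ → ℝ) (m kP kC : ℤ) P0 C0 P1 C1,
      SeesLoop p M θ P0 C0 P1 C1 → θ 1 = m →
      HasIndexBetween P0 P1 (amplMat (Matrix.diagonal fun _ => M.W)) kP →
      HasIndexBetween C0 C1 (amplMat (Matrix.diagonal fun _ => M.W)) kC →
      φ (kClass M) = ((m * (kP - kC) : ℤ) : ZMod Q)

end VP212
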