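import Vale.Agent.P212.Base.Pairing

/-!
P212: the root tori, their modules, and the bundles paired with them.
-/

open scoped InnerProductSpace ZeroAtInfty
open MeasureTheory

namespace VP212

/-- The torus. -/
abbrev Torus : Type := UnitAddCircle × UnitAddCircle

/-- Square integrable functions on the torus. -/
abbrev TorusL2 : Type := Lp ℂ 2 (volume : Measure Torus)

/-- The hat function at the grid point `a` of a circle divided into `L` equal parts. -/
noncomputable def hat (L : ℕ) (x : UnitAddCircle) (a : ZMod L) : ℝ :=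
  max 0 (1 - (L : ℝ) * ‖x - ((((a.val : ℝ)) / (L : ℝ) : ℝ) : UnitAddCircle)‖)

/-- The bilinear coordinates of a torus point with respect to the grid. -/
noncomputable def gridCoord (n : ℕ) (x : Torus) (z : Grid n) : ℝ :=
  hat (n + 3) x.1 z.1 * hat (n + 3) x.2 z.2

/-- `p` is the point of the Rips complex given by the grid coordinates of `x` at the root. -/
def IsRootPoint (T : Tower) {R : ℝ} (n : ℕ) (x : Torus) (p : Rips (Vert T) R) : Prop :=
  (∀ z, p.1 (rootVert T ⟨n, z⟩) = gridCoord n x z) ∧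
  ∀ v : Vert T, v ∉ Set.range (fun z : Grid n => rootVert T ⟨n, z⟩) → p.1 v = 0

/-- The characters of the torus. -/
def IsChar (k : ℤ × ℤ) (e : TorusL2) : Prop :=
  ⇑e =ᵐ[volume] fun x => fourier k.1 x.1 * fourier k.2 x.2

/-- The symbol of a phase: bounded by one and asymptotic to the phase of the frequency. -/
def PhaseLike (m : ℤ × ℤ → ℂ) : Prop :=
  (∀ k, ‖m k‖ ≤ 1) ∧
  Filter.Tendsto (fun k : ℤ × ℤ => m k - ((k.1 : ℂ) + k.2 * Complex.I) /
    (‖(k.1 : ℂ) + k.2 * Complex.I‖ : ℂ)) Filter.cofinite (nhds 0)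

/-- `W` is the multiplier with symbol `m`. -/
def IsMultiplier (m : ℤ × ℤ → ℂ) (W : TorusL2 →L[ℂ] TorusL2) : Prop :=
  ∀ k e, IsChar k e → W e = m k • e

/-- The sum over the components of the torus spaces. -/
abbrev RootL2 : Type := lp (fun _ : ℕ => TorusL2) 2

variable {T : Tower}

/-- `M` is a module of phases on the root tori. -/
def IsTorusModule (M : FredMod (C₀(Rips (Vert T) 2, ℂ))) : Prop :=
  ∃ (U0 : M.H0.carrier ≃ₗᵢ[ℂ] RootL2) (U1 : M.H1.carrier ≃ₗᵢ[ℂ] RootL2)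
    (W : ℕ → (TorusL2 →L[ℂ] TorusL2)) (m : ℕ → ℤ × ℤ → ℂ)
    (φ : ∀ n, Torus → Rips (Vert T) 2),
    (∀ n, PhaseLike (m n) ∧ IsMultiplier (m n) (W n) ∧ Continuous (φ n) ∧
      ∀ x, IsRootPoint T n x (φ n x)) ∧
    (∀ f v n, ⇑(U0 (M.ρ0 f v) n) =ᵐ[volume] fun x => f (φ n x) * (U0 v n : TorusL2) x) ∧
    (∀ f v n, ⇑(U1 (M.ρ1 f v) n) =ᵐ[volume] fun x => f (φ n x) * (U1 v n : TorusL2) x) ∧
    (∀ v n, (U1 (M.W v) n : TorusL2) = W n (U0 v n))

/-- A geometric torus module whose index class lives on the roots. -/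
def TorusModuleSpec : Prop :=
  ∀ T : Tower, BoundedGeometry (Vert T) → UniformlyDiscrete (Vert T) →
    ∃ M : FredMod (C₀(Rips (Vert T) 2, ℂ)), IsTorusModule M ∧ IsGeometric M ∧
      ∃ J0 J1, IsCovering M.ρ0 J0 ∧ IsCovering M.ρ1 J1 ∧
        ∃ (T0 : Fin 2 → Fin 2 → (RoeSpace (Σ n, Grid n) →L[ℂ] RoeSpace (Σ n, Grid n)))
          (S : Fin 2 → Fin 2 → (RoeSpace Base →L[ℂ] RoeSpace Base)),
          (∀ i j, IsRoe (indexEntry M J0 J1 i j) ∧
            AtRoots (rootVert T) (indexEntry M J0 J1 i j) (T0 i j)) ∧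
          (∀ i j, IsRoe (S i j) ∧ AtRoots rootBase (S i j) (T0 i j)) ∧
          (∀ i j, CompDiag (T0 i j)) ∧
          IsIdempotentElem (Matrix.diagonal ![(0 : RoeSpace Base →L[ℂ] RoeSpace Base), 1] +
            Matrix.of S)

/-- `ξ` is a frame of a line bundle of degree `d` on the torus, in coordinates on the plane. -/
def IsLineFrame {ι : Type} [Fintype ι] (d : ℤ) (ξ : ℝ → ℝ → ι → ℂ) : Prop :=
  (∀ i, Continuous fun q : ℝ × ℝ => ξ q.1 q.2 i) ∧ (∀ s t, ∑ i, ‖ξ s t i‖ ^ 2 = 1) ∧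
  (∀ s t i, ξ s (t + 1) i = ξ s t i) ∧
  ∀ s t i, ξ (s + 1) t i = Complex.exp (2 * Real.pi * Complex.I * d * t) * ξ s t i

/-- The matrix `P` on the torus is a line of degree `d` plus the coordinates in `F`. -/
def IsLinePlus {ι : Type} [Fintype ι] (d : ℤ) (F : Finset ι) (P : Torus → Matrix ι ι ℂ) : Prop :=
  ∃ ξ : ℝ → ℝ → ι → ℂ, IsLineFrame d ξ ∧ (∀ s t, ∀ i ∈ F, ξ s t i = 0) ∧
    ∀ (s t : ℝ) (i j : ι), P (↑s, ↑t) i j =
      ξ s t i * starRingEnd ℂ (ξ s t j) + by classical exact if i = j ∧ i ∈ F then 1 else 0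

/-- The indicator matrix of a set of coordinates. -/
noncomputable def coordProj {ι : Type} (G : Finset ι) : Matrix ι ι ℂ := by
  classical exact Matrix.diagonal fun i => if i ∈ G then 1 else 0

/-- The bundle input: for every scale and multiplier a path which, at the root of one component,
is a loop of degree-one lines, and whose modulus does not divide the multiplier. -/
def BundleSpec : Prop :=
  ∀ T : Tower,
    (∀ K : ℕ, ∃ N : ℕ, ∀ n ≥ N, ∃ X : TopLift T n (5 ^ (2 * n)), X.Loops K) →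
    ∀ R : ℝ, 2 ≤ R → ∀ k : ℕ, 0 < k →
    ∃ (n Q : ℕ) (_ : 0 < Q) (p : QPath (C₀(Rips (Vert T) R, ℂ)) Q) (θ : ℝ → ℝ) (m d : ℤ)
      (F G : Finset (p.ι × Fin Q)) (P : Torus → Matrix (p.ι × Fin Q) (p.ι × Fin Q) ℂ),
      ¬ (Q : ℤ) ∣ (k : ℤ) ∧ Continuous θ ∧ θ 0 = 0 ∧ θ 1 = m ∧ (m = 1 ∨ m = -1) ∧
      (d = 1 ∨ d = -1) ∧ G.card = F.card + 1 ∧ Disjoint F G ∧ IsLinePlus d F P ∧
      (∀ x, P x * coordProj G = 0) ∧ (∀ x, coordProj G * P x = 0) ∧
      (∀ t ∈ Set.Icc (0 : ℝ) 1, ∀ (x : Torus) (q : Rips (Vert T) R), IsRootPoint T n x q →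
        (p.a t).map (fun f => f q) =
          (Complex.exp (2 * Real.pi * Complex.I * θ t) - 1) • P x +
          (Complex.exp (-(2 * Real.pi * Complex.I * θ t)) - 1) • coordProj G) ∧
      ∀ t ∈ Set.Icc (0 : ℝ) 1, ∀ n', n' ≠ n → ∀ (x : Torus) (q : Rips (Vert T) R),
        IsRootPoint T n' x q → (p.a t).map (fun f => f q) = 0

/-- The index of the phase between lines of degree `±1` is `±1`, between constants it is `0`. -/
def TorusIndexSpec : Prop :=
  ∀ (ι : Type) [Fintype ι] [DecidableEq ι] (m : ℤ × ℤ → ℂ) (W : TorusL2 →L[ℂ] TorusL2),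
    PhaseLike m → IsMultiplier m W →
    (∀ (d : ℤ) (F : Finset ι) (P : Torus → Matrix ι ι ℂ)
        (Pop : Ampl ι TorusL2 →L[ℂ] Ampl ι TorusL2),
      (d = 1 ∨ d = -1) → IsLinePlus d F P →
      (∀ v i, ⇑(Pop v i) =ᵐ[volume] fun x => ∑ j, P x i j * (v j : TorusL2) x) →
      ∃ k : ℤ, (k = 1 ∨ k = -1) ∧
        HasIndexBetween Pop Pop (amplMat (Matrix.diagonal fun _ => W)) k) ∧
    ∀ (G : Finset ι) (Cop : Ampl ι TorusL2 →L[ℂ] Ampl ι TorusL2),
      (∀ v i, (Cop v i : TorusL2) = if i ∈ G then v i else 0) →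
      HasIndexBetween Cop Cop (amplMat (Matrix.diagonal fun _ => W)) 0

end VP212
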