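import Mathlib

/-!
P212: the combinatorial data of the construction. A tower is a family, over the component `n`
and the level `l`, of finite sets on which finitely many letters act; the letters satisfy the
relations of three cyclically arranged elementary root groups.
-/

namespace VP212

/-- The coefficient space of the letters. -/
abbrev Coef : Type := Fin 7 → ZMod 5

/-- The coefficient space of the central letters. -/
abbrev Coef2 : Type := Fin 7 × Fin 7 → ZMod 5

/-- Elementary tensor. -/
def tens (a b : Coef) : Coef2 := fun p => a p.1 * b p.2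

/-- The letters. -/
abbrev Gen : Type := Fin 3 × Coef

/-- Evaluation of a word of letters. -/
def wordPerm {α : Type} (act : Gen → Equiv.Perm α) (w : List Gen) : Equiv.Perm α :=
  (w.map act).prod

/-- The tower. -/
structure Tower where
  Fib : ℕ → ℕ → Type
  [fin : ∀ n l, Fintype (Fib n l)]
  [dec : ∀ n l, DecidableEq (Fib n l)]
  [ne : ∀ n l, Nonempty (Fib n l)]
  root : ∀ n, Subsingleton (Fib n 0)
  act : ∀ n l, Gen → Equiv.Perm (Fib n l)
  ctr : ∀ n l, Fin 3 → Coef2 → Equiv.Perm (Fib n l)
  act_add : ∀ n l i a b, act n l (i, a + b) = act n l (i, a) * act n l (i, b)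
  ctr_add : ∀ n l i a b, ctr n l i (a + b) = ctr n l i a * ctr n l i b
  heis : ∀ n l i a b, act n l (i, a) * act n l (i + 1, b) =
    ctr n l i (tens a b) * (act n l (i + 1, b) * act n l (i, a))
  ctr_comm_left : ∀ n l i z a, Commute (ctr n l i z) (act n l (i, a))
  ctr_comm_right : ∀ n l i z a, Commute (ctr n l i z) (act n l (i + 1, a))
  ctrWord : Fin 3 → Coef2 → List Gen
  ctr_word : ∀ n l i z, ctr n l i z = wordPerm (act n l) (ctrWord i z)
  A : ∀ n l, Equiv.Perm (Fib n l)
  B : ∀ n l, Equiv.Perm (Fib n l)
  AB : ∀ n l, Commute (A n l) (B n l)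
  A_act : ∀ n l g, Commute (A n l) (act n l g)
  B_act : ∀ n l g, Commute (B n l) (act n l g)
  par : ∀ n l, Fib n (l + 1) → Fib n l
  par_A : ∀ n l x, par n l (A n (l + 1) x) = A n l (par n l x)
  par_B : ∀ n l x, par n l (B n (l + 1) x) = B n l (par n l x)
  par_surj : ∀ n l, Function.Surjective (par n l)
  par_regular : ∀ n l y y', Nat.card {x // par n l x = y} = Nat.card {x // par n l x = y'}
  bound : ℕ
  par_bound : ∀ n l y, Nat.card {x // par n l x = y} ≤ bound
  down : ∀ n l g, ∃ w : List Gen, w.length ≤ bound ∧
    ∀ x, par n l (act n (l + 1) g x) = wordPerm (act n l) w (par n l x)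
  up : ∀ n l g, ∃ w : List Gen, w.length ≤ bound ∧
    ∀ x, par n l (wordPerm (act n (l + 1)) w x) = act n l g (par n l x)
  shuffle : ∀ n l x x', par n l x = par n l x' →
    ∃ w : List Gen, w.length ≤ bound ∧ wordPerm (act n (l + 1)) w x = x'
  top : ℕ → ℕ
  plain : ∀ n l, top n ≤ l → Function.Bijective (par n l) ∧
    ∀ g x, par n l (act n (l + 1) g x) = act n l g (par n l x)

attribute [instance] Tower.fin Tower.dec Tower.ne

/-- A lifting of the top level of the `n`-th component: a free action of `ZMod Q` with quotient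
the top level, to which the letters and the two translations lift, the commutator of the two
translations becoming the generator. -/
structure TopLift (T : Tower) (n : ℕ) (Q : ℕ) where
  Lift : Type
  proj : Lift → T.Fib n (T.top n)
  act : Gen → Equiv.Perm Lift
  A : Equiv.Perm Lift
  B : Equiv.Perm Lift
  z : ZMod Q → Equiv.Perm Lift
  proj_surj : Function.Surjective proj
  proj_act : ∀ g x, proj (act g x) = T.act n (T.top n) g (proj x)
  proj_A : ∀ x, proj (A x) = T.A n (T.top n) (proj x)
  proj_B : ∀ x, proj (B x) = T.B n (T.top n) (proj x)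
  z_add : ∀ c d, z (c + d) = z c * z d
  z_free : ∀ c x, z c x = x → c = 0
  z_fibre : ∀ x y, proj x = proj y ↔ ∃ c, z c x = y
  z_act : ∀ c g, Commute (z c) (act g)
  z_A : ∀ c, Commute (z c) A
  z_B : ∀ c, Commute (z c) B
  A_act : ∀ g, Commute A (act g)
  B_act : ∀ g, Commute B (act g)
  comm : A * B = z 1 * (B * A)

/-- Short words fix a lifted point as soon as they fix it up to the central action. -/
def TopLift.Loops {T : Tower} {n Q : ℕ} (X : TopLift T n Q) (K : ℕ) : Prop :=
  ∀ w : List Gen, w.length ≤ K → ∀ x c, wordPerm X.act w x = X.z c x → c = 0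

/-- The algebraic input: a tower with liftings of growing order and vanishing short loops. -/
def TowerSpec : Prop :=
  ∃ T : Tower, ∀ K : ℕ, ∃ N : ℕ, ∀ n ≥ N, ∃ X : TopLift T n (5 ^ (2 * n)), X.Loops K

end VP212
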