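import Vale.Agent.P212.Base.Tower

/-!
P212: the two spaces. Component `n` is a torus grid of side `n + 3` times the levels times the
fibres, the fibres being twisted along the seams.
-/

namespace VP212

/-- The torus grid of the `n`-th component. -/
abbrev Grid (n : ℕ) : Type := ZMod (n + 3) × ZMod (n + 3)

/-- The vertices of the space. -/
structure Vert (T : Tower) : Type where
  n : ℕ
  z : Grid n
  l : ℕ
  w : T.Fib n l

/-- The vertices of the collapsed space. -/
structure Base : Type where
  n : ℕ
  z : Grid n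
  l : ℕ

variable {T : Tower}

/-- The collapse. -/
def Vert.base (x : Vert T) : Base := ⟨x.n, x.z, x.l⟩

/-- The last coordinate, where the seams are. -/
def seam (n : ℕ) : ZMod (n + 3) := -1

/-- One step of the twisted grid in the first direction. -/
def stepA (x : Vert T) : Vert T :=
  ⟨x.n, (x.z.1 + 1, x.z.2), x.l, if x.z.1 = seam x.n then T.A x.n x.l x.w else x.w⟩

/-- One step of the twisted grid in the second direction. -/
def stepB (x : Vert T) : Vert T :=
  ⟨x.n, (x.z.1, x.z.2 + 1), x.l, if x.z.2 = seam x.n then T.B x.n x.l x.w else x.w⟩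

/-- A letter acting on the vertices. -/
def stepG (g : Gen) (x : Vert T) : Vert T := ⟨x.n, x.z, x.l, T.act x.n x.l g x.w⟩

/-- The edges. -/
def edgeRel (x y : Vert T) : Prop :=
  (∃ g, y = stepG g x) ∨ y = stepA x ∨ y = stepB x ∨
    ∃ (v : T.Fib x.n (x.l + 1)), T.par x.n x.l v = x.w ∧ y = ⟨x.n, x.z, x.l + 1, v⟩

/-- The graph. -/
def vertGraph (T : Tower) : SimpleGraph (Vert T) := SimpleGraph.fromRel edgeRel

/-- The edges of the collapsed space. -/
def baseRel (x y : Base) : Prop :=
  y = ⟨x.n, (x.z.1 + 1, x.z.2), x.l⟩ ∨ y = ⟨x.n, (x.z.1, x.z.2 + 1), x.l⟩ ∨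
    y = ⟨x.n, x.z, x.l + 1⟩

/-- The graph of the collapsed space. -/
def baseGraph : SimpleGraph Base := SimpleGraph.fromRel baseRel

end VP212
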